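import Vale.Agent.P293.Class

open MvPolynomial Vale.Agent.P293

namespace Vale.Agent.Results.P295.AffineLinearCoordinates

/-- Stable coordinates that are affine-linear in a block of variables. -/
theorem result (k m r : ℕ) (a : Fin m → MvPolynomial (Fin k) ℂ) (b : MvPolynomial (Fin k) ℂ)
    (c : ℂ) (hc : ∀ x ∈ commonZeros a, eval x b ≠ c) (h : IsStableCoordinate r (affLin a b)) :
    commonZeros a = ∅ ∧ IsCoordinate (affLin a b) :=
  stable_affLin a b c hc h

end Vale.Agent.Results.P295.AffineLinearCoordinates
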